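import Vale.Agent.P207.N5.H267.St8Q
import Vale.Agent.P207.N5.H391.Theta

/-!
# P207, all n, strictly quarter pinched (`b < 2a`), row ST8': the input of step 8
-/

set_option maxSynthPendingDepth 3

open Set Filter Topology Metric
open scoped ContDiff

noncomputable section

namespace Vale.Agent.P207.N4.V.H267

open Vale.Agent.P207.N3
open Vale.Agent.P207.N4.H883 (AffS St8)
open Vale.Agent.P207.N4.H391
open Vale.Agent.P207.N4.V.H391
open Vale.Agent.P207.N4.H391.Q (V4 MM act act_apply fam)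

variable [Dim]

variable {Γ X B : Type} [Group Γ] [MetricSpace X] [ProperSpace X] [MulAction Γ X]
  [IsIsometricSMul Γ X] [TopologicalSpace B] [CompactSpace B] [T2Space B] [MulAction Γ B]
  [ContinuousConstSMul Γ B] {L : Leaf Γ X B}

theorem trn_theta (F : Aff L) {D : B → B → ℝ} (hS : SmB L D) (x : X) (z : E2) (v : Fin 4 → E2) :
    trn F hS (theta F D) x z v = c22 F D (mv F x z) (kap' F x z (v 0)) (kap' F x z (v 1))
      (kap F hS x z (v 2)) (kap F hS x z (v 3)) := by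
  rw [trn, act_apply, theta_apply]
  rfl

/-- **The input of step 8, `b < 2a`.** -/
theorem exists_st8_final (F : Aff L) {D : B → B → ℝ} (hS : SmB L D)
    (hD : ∀ x, D (L.em x) (L.ep x) = L.lv x + L.lp x) {a b : ℝ} (ha : 0 < a) (hab : a ≤ b)
    (hb : b < 2 * a) (hR : ∀ t, 0 ≤ t → ∀ x q,
      Real.exp (a * t) * ‖q‖ ≤ ‖F.P t x q‖ ∧ ‖F.P t x q‖ ≤ Real.exp (b * t) * ‖q‖) :
    ∃ S : St8 L, S.toAffS = affS F hS := by
  refine exists_st8Q F hS hD ha hab hb hR fun ρ C hρ hC hl => ?_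
  have hlip : ∀ x z, ‖z‖ < ρ → ‖trn F hS (theta F D) x z - theta F D x‖ ≤ C * ‖z‖ := by
    intro x z hz
    refine ContinuousMultilinearMap.opNorm_le_bound (by positivity) fun v => ?_
    rw [sub_apply, trn_theta, theta_apply, Fin.prod_univ_four, Real.norm_eq_abs]
    have h := hl x z hz (v 0) (v 1) (v 2) (v 3)
    calc _ ≤ C * ‖z‖ * ‖v 0‖ * ‖v 1‖ * ‖v 2‖ * ‖v 3‖ := h
      _ = C * ‖z‖ * (‖v 0‖ * ‖v 1‖ * ‖v 2‖ * ‖v 3‖) := by ring
  intro x z hz α α' u u'
  have h := DFunLike.congr_fun (par_of_type F hS hD ha hb hR hC hlip x hz) ![α, α', u, u']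
  rw [trn_theta, theta_apply] at h
  exact h

end Vale.Agent.P207.N4.V.H267
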