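import Vale.Agent.P207.N5.H391.BtE
import Vale.Agent.P207.H267.Q.C22

/-!
# P207, all n, strictly quarter pinched (`b < 2a`), row ST8': the instance `FlipD`
-/

open Set Filter Topology Metric
open scoped ContDiff

noncomputable section

namespace Vale.Agent.P207.N4.V.H267

open Vale.Agent.P207.N3
open Vale.Agent.P207.N4.H391
open Vale.Agent.P207.N4.V.H391

variable [Dim]

variable {Γ X B : Type} [Group Γ] [MetricSpace X] [ProperSpace X] [MulAction Γ X]
  [IsIsometricSMul Γ X] [TopologicalSpace B] [CompactSpace B] [T2Space B] [MulAction Γ B]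
  [ContinuousConstSMul Γ B] {L : Leaf Γ X B}

/-- `D` is symmetric -/
theorem D_symm {D : B → B → ℝ} (hD : ∀ x, D (L.em x) (L.ep x) = L.lv x + L.lp x) {ξ η : B}
    (h : ξ ≠ η) : D ξ η = D η ξ := by
  obtain ⟨x, rfl, rfl, -⟩ := L.exists_frame ξ η h 0
  have h1 := hD x
  have h2 := hD (L.flip x)
  rw [em_flip, ep_flip] at h2
  rw [h1, h2]
  simp only [Leaf.lp, L.flip_flip]
  ring

theorem bta_flip (F : Aff L) {D : B → B → ℝ}
    (hD : ∀ x, D (L.em x) (L.ep x) = L.lv x + L.lp x) (x : X) {z u : E2}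
    (h : F.pt (L.flip x) z ≠ F.pt x u) : bta F D (L.flip x) (u, z) = bta F D x (z, u) := by
  simp only [bta, L.flip_flip, em_flip, ep_flip]
  rw [D_symm hD h, D_symm hD (F.pt_ne x u).symm, D_symm hD (pt_flip_ne F x z),
    D_symm hD (L.em_ne_ep x)]
  ring

/-- **The data of the linearisation, `b < 2a`.** -/
theorem exists_flipD (F : Aff L) {D : B → B → ℝ} (hS : SmB L D)
    (hD : ∀ x, D (L.em x) (L.ep x) = L.lv x + L.lp x) {a b : ℝ} (ha : 0 < a) (hab : a ≤ b)
    (hb : b < 2 * a) (hR : ∀ t, 0 ≤ t → ∀ x q,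
      Real.exp (a * t) * ‖q‖ ≤ ‖F.P t x q‖ ∧ ‖F.P t x q‖ ≤ Real.exp (b * t) * ‖q‖) :
    ∃ S : Vale.Agent.P207.H267.Q.FlipD X E2, S.ψ = ψ L ∧ S.L = L1 F ∧ S.L' = L1' F ∧
      S.β = bta F D ∧ S.mv = mv F ∧ S.κ = kap F hS ∧ S.κ' = kap' F ∧ S.g = hlo F ∧
      S.flip = L.flip := by
  obtain ⟨r, hr0, hr2, hr⟩ := exists_rad F
  choose M hM using bta_bound F hS hD (hd2 F) hr2 hr
  obtain ⟨M0, hM0⟩ := mix_inv_bound F hS hD
  obtain ⟨ρ, hρ0, hρr, hρ⟩ := exists_rho F hr0
  obtain ⟨C1, hC10, hC1⟩ := kap_bound F hS ρ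
  obtain ⟨C2, hC20, hC2⟩ := kap_symm_bound F hS ρ
  obtain ⟨C3, hC30, hC3⟩ := kap'_bound F ρ
  have hR1 : ∀ x q, Real.exp a * ‖q‖ ≤ ‖F.P 1 x q‖ ∧ ‖F.P 1 x q‖ ≤ Real.exp b * ‖q‖ := by
    intro x q
    have h := hR 1 zero_le_one x q
    rwa [mul_one, mul_one] at h
  have hsub : ∀ (x : X) (p : E2 × E2), p ∈ ball (0 : E2 × E2) r → (x, p) ∈ SB F := by
    intro x p hp
    rw [mem_ball_zero_iff, Prod.norm_def, max_lt_iff] at hp
    refine ⟨by rw [mem_ball_zero_iff]; linarith [hp.1], by rw [mem_ball_zero_iff]; linarith [hp.2],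
      hr x p.1 p.2 ?_ ?_⟩
    · rw [mem_closedBall_zero_iff]; exact hp.1.le
    · rw [mem_closedBall_zero_iff]; exact hp.2.le
  have hcb : ∀ {z : E2}, ‖z‖ < ρ → z ∈ closedBall (0 : E2) ρ := fun h => by
    rw [mem_closedBall_zero_iff]; exact h.le
  have hcr : ∀ {z : E2}, ‖z‖ < r → z ∈ closedBall (0 : E2) r := fun h => by
    rw [mem_closedBall_zero_iff]; exact h.le
  refine ⟨{
    ψ := ψ L
    L := L1 F
    L' := L1' F
    lam := Real.exp (-a)
    Lam := Real.exp b
    lam_pos := Real.exp_pos _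
    one_lt_Lam := by rw [Real.one_lt_exp_iff]; linarith
    norm_L := fun v => norm_le_of_rate (Real.exp_pos _).le (hR1 _)
    norm_L_symm := fun v => by
      rw [Real.exp_neg]; exact norm_symm_le_of_rate (Real.exp_pos _) (hR1 _)
    norm_L' := fun v => by
      rw [Real.exp_neg]; exact norm_symm_le_of_rate (Real.exp_pos _) (hR1 _)
    norm_L'_symm := fun v => by
      rw [L1', ContinuousLinearEquiv.symm_symm]
      exact norm_le_of_rate (Real.exp_pos _).le (hR1 _)
    lam_lt_one := by rw [Real.exp_lt_one_iff]; linarith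
    weight := by
      rw [← Real.exp_nat_mul, ← Real.exp_add, Real.exp_lt_one_iff]
      push_cast
      linarith
    r := r
    r_pos := hr0
    ψ_surj := ψ_surj
    β := bta F D
    M := M
    smooth := fun v p hp => ((bta_jc' F hS).contDiffAt (hsub v p hp)).contDiffWithinAt
    bound := fun v k p hp => hM k v p (ball_subset_closedBall hp)
    zero_left := fun v u _ => bta_zero_left F D v u
    zero_right := fun v z _ => bta_zero_right F D v z
    equi := fun v z u _ _ _ => equi1 F v z u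
    K := mixe F hS
    K_eq := fun v => (mixe_coe F hS v).symm
    M0 := M0
    K_symm_le := hM0
    ρ := ρ
    ρ_pos := hρ0
    ρ_le := hρr
    k0 := max C1 (max C2 C3)
    mv := mv F
    κ := kap F hS
    κ' := kap' F
    κ_le := fun v z hz => (hC1 v z (hcb hz)).trans (le_max_left _ _)
    κ_symm_le := fun v z hz =>
      (hC2 v z (hcb hz)).trans ((le_max_left _ _).trans (le_max_right _ _))
    κ'_le := fun v z hz =>
      (hC3 v z (hcb hz)).trans ((le_max_right _ _).trans (le_max_right _ _))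
    g := hlo F
    g_zero := fun v z _ => hlo_zero F v z
    g_deriv := fun v z _ => g_deriv F hS v z
    g_lt := hρ
    base := fun v z₁ hz₁ => Eventually.of_forall fun z u hu =>
      bta_base F D (hr v z₁ u (closedBall_subset_closedBall hρr (hcb hz₁))
        (closedBall_subset_closedBall hρr (hcb hu))) z
    flow_mv := fun v z _ => mv_ψ F v z
    flow_κ := fun v z _ u => flow_kap F hS v z u
    flow_κ' := fun v z _ α => flow_kap' F v z α
    flow_g := fun v u => flow_hlo F hS v u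
    flip := L.flip
    flip_flip := L.flip_flip
    β_flip := fun v z u hz hu => bta_flip F hD v (hr v z u (hcr hz) (hcr hu)) },
      rfl, rfl, rfl, rfl, rfl, rfl, rfl, rfl, rfl⟩

end Vale.Agent.P207.N4.V.H267
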